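import Vale.Agent.P088.R2.H657.A.Lv

/-!
# P088, stage 3, zone A: row A-TOT-F (`r ≥ 16`)
-/

open Set Filter
open scoped ContDiff Topology Matrix

noncomputable section

namespace Vale.Agent.P088.R2.H657.A

open Vale.Agent.P088.LR Vale.Agent.P088.HY Vale.Agent.P088.R2.H31.EP
open Vale.Agent.P088.R2.H644.Sy Vale.Agent.P088.R2.H464.Cu Vale.Agent.P088.R2.H961.GW
open Vale.Agent.P088.R2.H644.Ep Vale.Agent.P088.R2.H657.W
open Vale.Agent.P088.R2.H644 Vale.Agent.P088.R2.H960.W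
open Vale.Agent.P088.R2.H932.EP (Ow Ow_open Ow_conv mem_Ow)
open Vale.Agent.P088.R2.H475 (levG levG_smooth levG_bound)

variable {n : ℕ}

/-- The index type: all constants before `c'` are fixed. -/
structure Ix (n : ℕ) (p : Cst) (Cf : ℝ) where
  q : Cst
  d : Pk n
  c : Fin n → VV n → ℝ
  c' : Fin n → VV n → ℝ
  z : VV n
  hp : q.b_c' = p
  cn : Cnd n q
  ok : PkOk q d
  hz : z ∈ Us q d
  fd : H747.A.FdB q d Cf c c' z

variable {p : Cst} {Cf : ℝ}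

theorem Ix.σ (a : Ix n p Cf) : a.q.σ = p.σ := by
  have h : a.q.b_c'.σ = p.σ := congrArg Cst.σ a.hp
  exact h

theorem Ix.e₁ (a : Ix n p Cf) : a.q.e₁ = p.e₁ := by
  have h : a.q.b_c'.e₁ = p.e₁ := congrArg Cst.e₁ a.hp
  exact h

theorem Ix.ph (a : Ix n p Cf) : a.q.ph = p.ph := by
  have h : a.q.b_c'.ph = p.ph := congrArg Cst.ph a.hp
  exact h

theorem Us_uf {q : Cst} {d : Pk n} (ok : PkOk q d) {z : VV n} (hz : z ∈ Us q d) :
    d.u q z = uf d.l z := Us_u ok (by have := hz.1; linarith)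

theorem M_le_N {q : Cst} {d : Pk n} (ok : PkOk q d) (u : ℝ) : q.M₀ ≤ deriv d.Φ u :=
  (ok.ph.isΦ.n1 u).trans (ok.top.l1 u)

/-- The slopes. -/
theorem sc_of : Sc (fun a : Ix n p Cf => Us a.q a.d) (fun a => a.d.l) (fun a => a.d.Φ) where
  s a := a.ok.top.sm
  n a z _ := a.cn.M0.trans (M_le_N a.ok _)
  k a z _ := (a.ok.top.k0 _).le
  kn := ⟨2 + 1 / 20, by norm_num, fun a z hz => a.ok.top.k1 _ (by
    rw [← Us_uf a.ok hz]
    exact hz.2.2.2.2.le)⟩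
  kd j _ := ⟨p.ph.Ct j, fun a z hz => by
    have h := a.ok.top.kd j (uf a.d.l z) (by
      rw [← Us_uf a.ok hz]
      exact hz.2.2.2.2.le)
    rwa [a.ph] at h⟩

/-- **The data of the far family on the package.** -/
theorem fd_of (hn : 1 ≤ n) (h0 : 0 < p.σ) (h1 : p.σ ≤ 1 / 5000) (he : 0 < p.e₁) :
    FD (fun a : Ix n p Cf => Ow n p.σ a.q.R) (fun a => Us a.q a.d) (fun a => a.q.R)
      (fun a => a.d.l) (fun a => a.d.s₁) (fun a => a.d.s₂) (fun a => a.d.Φ) 2 225 (prS p.e₁)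
      (H644.Ph1 2 Li p.e₁ rp dp) (fun a => a.q.D) (fun a => H768.W.uu a.q.τ a.q.r₁)
      (fun a => a.q.M₀) (fun a => a.q.τ) (fun a => a.q.r₁) (fun a => a.q.ε)
      (fun i j => |slB i j|) where
  L := by
    refine lg_of (K := 12) (e := fun a => a.q.ε) (fun a => Rg.t1 a.ok.rg) (by norm_num)
      (by norm_num) (fun a => Ow_open _ _) (fun a => Us_open a.cn a.ok) (fun a => a.cn.R1)
      (fun a => a.cn.ε0) (fun a => a.cn.ε1) (fun a => a.cn.εn) (fun a => a.cn.εG)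
      (fun a z hz => ?_) (fun a z hz => ?_) (fun a z hz => ?_)
      (fun a => a.ok.lev.sm.contDiffOn) ?_ (fun a z hz => ?_)
    · rw [← a.σ]
      exact (Us_Ow a.cn a.ok hz).1
    · rw [← a.σ]
      exact (Us_Ow a.cn a.ok hz).2
    · rw [← a.σ]
      exact mid_mem (Ow_conv _ _) (Us_Ow a.cn a.ok hz).1 (Us_Ow a.cn a.ok hz).2
    · have h := dl_lev hn h0 h1 (R := fun a : Ix n p Cf => a.q.R) (kap := fun a => a.d.kap)
        (Gs := fun a => a.d.Gs) (fun a => a.cn.R1) 4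
      have e : (fun a : Ix n p Cf => fderiv ℝ a.d.l) =
          fun a => fderiv ℝ (levG n p.σ a.q.R a.d.kap a.d.Gs) := by
        funext a
        rw [lev_eq a.ok, a.σ]
      rw [e]
      exact h
    · have hR := one_pos.trans_le a.cn.R1
      have hi := (Rg.t1 a.ok.rg).inv hR a.cn.ε1 a.cn.εn
      have h2 := (rq_bd (hi.nr (by norm_num) univ) a.cn.εG (mem_univ (mid z))).2
      have h3 : dt (dif z) (dif z) = HY.sq (z.1 - z.2) := by
        unfold dt dif HY.sq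
        exact Finset.sum_congr rfl fun i _ => (pow_two _).symm
      rw [h3] at h2
      have h4 : HY.sq (z.1 - z.2) < (a.q.κ₁ * a.q.R) ^ 2 := hz.2.1
      have h5 : (a.q.κ₁ * a.q.R) ^ 2 ≤ a.q.R ^ 2 :=
        pow_le_pow_left₀ (mul_nonneg a.cn.κ0.le hR.le)
          (mul_le_of_le_one_left hR.le a.cn.κ1) 2
      refine Real.sqrt_le_iff.2 ⟨by positivity, ?_⟩
      have e : r2 (gi a.d.s₁) z = 2 * rq (gi a.d.s₁) z := rfl
      rw [e]
      nlinarith [sq_nonneg a.q.R]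
  t₁ a := (Rg.t1 a.ok.rg).mono (one_pos.trans_le a.cn.R1) (by norm_num) le_rfl
  t₂ a := (Rg.t2 a.ok.rg).mono (one_pos.trans_le a.cn.R1) (by norm_num) le_rfl
  e0 a := a.cn.ε0
  e1 a := a.cn.ε1
  en a := a.cn.εn
  hS := H768.FarJ.ls he (by norm_num)
  h0 a z hz := hz.1
  p := sc_of
  M0 a := a.cn.M0
  C0 i j := abs_nonneg _
  sl a := IsSlow_mono a.ok.sl (by have := a.cn.s1; linarith) a.cn.c1 a.cn.M0

theorem fr_sq {q : Cst} {d : Pk n} {z : VV n} (hz : z ∈ Us q d) :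
    √(r2 (gi d.s₁) z) ^ 2 = r2 (gi d.s₁) z :=
  Real.sq_sqrt (le_of_lt (lt_trans (by norm_num) hz.1))

/-- The weight. -/
theorem W_fW (a : Ix n p Cf) {z : VV n} (hz : z ∈ Us a.q a.d) :
    a.d.W a.q z = fW (prS p.e₁) (fun a : Ix n p Cf => a.d.l) (fun a => a.d.s₁)
      (fun a => a.d.Φ) (fun a => a.q.D) a z := by
  have hR := one_pos.trans_le a.cn.R1
  have h := H768.A.W_eq a.ok (z := z) (lt_trans (by norm_num) hz.1) hR.le
    (by have := hz.2.2.1; linarith) (by have := hz.2.2.2.1; linarith)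
  rw [h]
  have e1 : fW (prS p.e₁) (fun a : Ix n p Cf => a.d.l) (fun a => a.d.s₁)
      (fun a => a.d.Φ) (fun a => a.q.D) a z = a.d.Φ (uf a.d.l z) +
      a.q.D 0 0 (uf a.d.l z + Real.log (prS p.e₁ (r2 (gi a.d.s₁) z)), √(r2 (gi a.d.s₁) z)) := rfl
  have e2 : H230.W.wt a.d.Φ (H768.A.Sl0 a.q) (H768.A.Dc a.q) (a.d.u a.q) (H768.FarJ.jr a.d) z =
      a.d.Φ (a.d.u a.q z) + a.q.D 0 0 (a.d.u a.q z +
        Real.log (prS a.q.e₁ (√(r2 (gi a.d.s₁) z) ^ 2)), √(r2 (gi a.d.s₁) z)) := rfl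
  rw [e1, e2, fr_sq hz, Us_uf a.ok hz, a.e₁]

theorem fG_eq (a : Ix n p Cf) (i j : ℕ) {z : VV n} (hz : z ∈ Us a.q a.d) :
    fG (prS p.e₁) (fun a : Ix n p Cf => a.d.l) (fun a => a.d.s₁) (fun a => a.q.D) i j a z =
      H747.A.D₂ a.q i j (H747.A.ff a.q a.d z) (H747.A.rr a.d z) := by
  have e1 : fG (prS p.e₁) (fun a : Ix n p Cf => a.d.l) (fun a => a.d.s₁) (fun a => a.q.D) i j a z =
      a.q.D i j (uf a.d.l z + Real.log (prS p.e₁ (r2 (gi a.d.s₁) z)), √(r2 (gi a.d.s₁) z)) := rfl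
  have e2 : H747.A.D₂ a.q i j (H747.A.ff a.q a.d z) (H747.A.rr a.d z) =
      a.q.D i j (a.d.u a.q z + Real.log (prS a.q.e₁ (√(r2 (gi a.d.s₁) z) ^ 2)),
        √(r2 (gi a.d.s₁) z)) := rfl
  rw [e1, e2, fr_sq hz, Us_uf a.ok hz, a.e₁]

section alg

variable {E ι : Type*} [NormedAddCommGroup E] [NormedSpace ℝ E] [Fintype ι] {σ τ : Sl E ι}
  {W m v₁ v₂ : E → ℝ} {c c₂ c' c₂' : ι → E → ℝ} {z : E} {η : ℝ}

theorem tc_pt (h : ∀ l, c l z = c₂ l z) (A : ι → ℝ) : tc σ c W z A = tc σ c₂ W z A := by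
  unfold tc
  simp only [h]

theorem Tot_pt (h : ∀ l, c l z = c₂ l z) (h' : ∀ l, c' l z = c₂' l z)
    (t : H747.A.Tot σ τ v₁ v₂ W m c c' η z) : H747.A.Tot σ τ v₁ v₂ W m c₂ c₂' η z := by
  intro A B x y
  have := t A B x y
  rwa [tc_pt h, tc_pt h'] at this

end alg

/-- The total inequality for the constants before `c'`. -/
theorem tot_p (hn : 1 ≤ n) (h0 : 0 < p.σ) (h1 : p.σ ≤ 1 / 5000) (he : 0 < p.e₁)
    {Cf η m₀ C₂ c₁ : ℝ} (hη : 0 < η) (hm₀ : 0 < m₀) (hC₂ : 0 ≤ C₂) (hc₁ : 0 < c₁)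
    (hCf : 0 ≤ Cf) :
    ∃ ε₁ > 0, ∃ N₀, ∀ (q : Cst) (d : Pk n), q.b_c' = p → Cnd n q → PkOk q d → ∀ z ∈ Us q d,
      ∀ c c' : Fin n → VV n → ℝ, H747.A.FdB q d Cf c c' z → ∀ m : VV n → ℝ,
      Cp ε₁ N₀ m₀ p.σ C₂ c₁ (d.N q z) (H747.A.GG q d z)
        (H747.A.D₂ q 2 0 (H747.A.ff q d z) (H747.A.rr d z)) (d.Kf q z) (H747.A.rr d z) q.R
        (d.sx.F (d.W q) z) (d.sy.F (d.W q) z) (m z) →
      (∀ X Y : Fin n → ℝ, 2 * (m z * ((∑ i, X i ^ 2) + ∑ k, Y k ^ 2)) ≤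
        Ch.TH d.sx d.sy (d.W q) z X Y + tc d.sx c (d.W q) z X + tc d.sy c' (d.W q) z Y) →
      H747.A.Tot d.sx d.sy 0 0 (d.W q) m c c' η z := by
  classical
  haveI : Nonempty (Fin n) := ⟨⟨0, hn⟩⟩
  have D := fd_of (n := n) (p := p) (Cf := Cf) hn h0 h1 he
  set cx : Ix n p Cf → Fin n → VV n → ℝ := fun a i z => if z = a.z then a.c i z else 0 with hcx
  set cy : Ix n p Cf → Fin n → VV n → ℝ := fun a i z => if z = a.z then a.c' i z else 0 with hcy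
  have Gp : ∀ a : Ix n p Cf, ∀ z ∈ Us a.q a.d, 0 ≤
      fG (prS p.e₁) (fun a : Ix n p Cf => a.d.l) (fun a => a.d.s₁) (fun a => a.q.D) 1 0 a z /
        fr (fun a : Ix n p Cf => a.d.s₁) a z := fun a z hz => by
    have r0 := fr_pos D hz
    exact div_nonneg (a.ok.sl.G_pos _ r0).le r0.le
  obtain ⟨ε₁, hε, N₀, H⟩ := FD.tot D (by norm_num) (W := fun a => a.d.W a.q) (cx := cx)
    (cy := cy) (Cf := Cf) (fun a z hz => W_fW a hz)
    (fun a z hz i j => by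
      by_cases h : z = a.z
      · have h2 := (a.fd i j).1
        simp only [hcx, if_pos h]
        subst h
        rw [fG_eq a 1 0 hz]
        exact h2
      · simp only [hcx, if_neg h, zero_mul, abs_zero]
        exact mul_nonneg hCf (Gp a z hz))
    (fun a z hz i j => by
      by_cases h : z = a.z
      · have h2 := (a.fd i j).2
        simp only [hcy, if_pos h]
        subst h
        rw [fG_eq a 1 0 hz]
        exact h2
      · simp only [hcy, if_neg h, zero_mul, abs_zero]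
        exact mul_nonneg hCf (Gp a z hz))
    (fun a z _ => M_le_N a.ok _) hη h0 hm₀ hC₂ hc₁
  refine ⟨ε₁, hε, N₀, fun q d hp cn ok z hz c c' fd m hC cert => ?_⟩
  set a : Ix n p Cf := ⟨q, d, c, c', z, hp, cn, ok, hz, fd⟩ with ha
  have ex : ∀ l, cx a l z = c l z := fun l => by simp only [hcx, ha, if_true]
  have ey : ∀ l, cy a l z = c' l z := fun l => by simp only [hcy, ha, if_true]
  have key := H a z hz m (by
    have e1 := fG_eq a 1 0 hz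
    have e2 := fG_eq a 2 0 hz
    have e3 : fN (fun a : Ix n p Cf => a.d.l) (fun a => a.d.Φ) a z = d.N q z := by
      show deriv d.Φ (uf d.l z) = deriv d.Φ (d.u q z)
      rw [Us_uf ok hz]
    have e4 : fK (fun a : Ix n p Cf => a.d.l) (fun a => a.d.Φ) a z = d.Kf q z := by
      show deriv (deriv d.Φ) (uf d.l z) = deriv (deriv d.Φ) (d.u q z)
      rw [Us_uf ok hz]
    rw [e1, e2, e3, e4]
    exact hC) (fun X Y => by
    rw [tc_pt ex, tc_pt ey]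
    exact cert X Y)
  exact Tot_pt ex ey key

/-! ## The constants -/

theorem ev_cnd (n : ℕ) : EvC (Cnd n) := by
  have h1 : EvC fun q => q.κ₁ ≤ 1 := EvC.at_κ₁ (fun _ t => t ≤ 1) fun _ => sml_le one_pos
  have h2 : EvC fun q => q.σ ≤ 1 / 5000 :=
    EvC.at_σ (fun _ t => t ≤ 1 / 5000) fun _ => sml_le (by norm_num)
  have h3 : EvC fun q => q.c' ≤ 1 := EvC.at_c' (fun _ t => t ≤ 1) fun _ => sml_le one_pos
  have h4 : EvC fun q => q.es ≤ 1 / 10 :=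
    EvC.at_es (fun _ t => t ≤ 1 / 10) fun _ => sml_le (by norm_num)
  have hG := cG_nn n 12
  have h5 : EvC fun q => q.ε * (2 * (1 + n + n * cG n 12)) ≤ 1 :=
    EvC.at_ε (fun _ t => t * (2 * (1 + n + n * cG n 12)) ≤ 1) fun _ => by
      have hp : 0 < 2 * (1 + n + n * cG n 12) := by positivity
      filter_upwards [sml_le (a := 1 / (2 * (1 + n + n * cG n 12))) (by positivity)] with t ht
      rwa [le_div_iff₀ hp] at ht
  have h6 : EvC fun q => q.M₀ * Real.exp (-(22 / 10 * q.R)) ≤ 1 :=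
    EvC.at_R (fun q t => q.M₀ * Real.exp (-(22 / 10 * t)) ≤ 1) fun q => by
      have h : Tendsto (fun t : ℝ => q.M₀ * Real.exp (-(22 / 10 * t))) atTop (𝓝 (q.M₀ * 0)) :=
        (Real.tendsto_exp_neg_atTop_nhds_zero.comp
          (tendsto_id.const_mul_atTop (by norm_num : (0 : ℝ) < 22 / 10))).const_mul _
      rw [mul_zero] at h
      exact (h.eventually (gt_mem_nhds one_pos)).mono fun _ ht => ht.le
  refine ((EvC.pos.and (h1.and h2)).and ((h3.and h4).and (h5.and h6))).mono ?_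
  rintro q ⟨⟨⟨⟨a1, a2, a3, a4, a5, a6, a7, a8, a9, a10⟩, ⟨b1, b2, b3, b4, b5, b6, b7⟩, c1, c2, c3, c4,
    c5, c6⟩, d1, d2⟩, ⟨d3, d4⟩, d5, d6⟩
  have e0 : 0 ≤ (n : ℝ) * q.ε := by positivity
  have e1 : 0 ≤ (n : ℝ) * cG n 12 * q.ε := by positivity
  exact
  { R1 := c6
    ε0 := c3.le
    ε1 := by nlinarith
    εn := by nlinarith
    εG := by nlinarith
    s0 := b4.le
    s1 := d4
    c0 := b3.le
    c1 := d3
    M0 := zero_le_one.trans c1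
    e₁ := a2
    κ0 := b1
    κ1 := d1
    σ0 := b2
    σ1 := d2
    Ck := c5
    MR := d6 }

/-- `F ≥ |D W|² / 2`. -/
theorem F_ge_x {q : Cst} {d : Pk n} (cn : Cnd n q) (ok : PkOk q d) (z : VV n) :
    1 / 2 * H747.A.Wx2 q d z ≤ d.sx.F (d.W q) z := by
  have h := (abs_le.1 (bf_le cn.εn (fun i j => TR.b0 (Rg.t1 ok.rg) z.1 i j)
    fun i => d.sx.D i (d.W q) z)).1
  have e1 : d.sx.F (d.W q) z =
      ∑ i, ∑ j, d.s₁ z.1 i j * d.sx.D i (d.W q) z * d.sx.D j (d.W q) z := rfl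
  have e2 : H747.A.Wx2 q d z = ∑ i, d.sx.D i (d.W q) z ^ 2 := rfl
  rw [e1, e2]
  linarith

theorem F_ge_y {q : Cst} {d : Pk n} (cn : Cnd n q) (ok : PkOk q d) (z : VV n) :
    1 / 2 * H747.A.Wy2 q d z ≤ d.sy.F (d.W q) z := by
  have h := (abs_le.1 (bf_le cn.εn (fun i j => TR.b0 (Rg.t2 ok.rg) z.2 i j)
    fun i => d.sy.D i (d.W q) z)).1
  have e1 : d.sy.F (d.W q) z =
      ∑ i, ∑ j, d.s₂ z.2 i j * d.sy.D i (d.W q) z * d.sy.D j (d.W q) z := rfl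
  have e2 : H747.A.Wy2 q d z = ∑ i, d.sy.D i (d.W q) z ^ 2 := rfl
  rw [e1, e2]
  linarith

theorem OmA_Us {q : Cst} {d : Pk n} (cn : Cnd n q) {z : VV n} (hz : z ∈ H747.A.OmA q d)
    (h16 : 16 ≤ H747.A.rr d z) : z ∈ Us q d := by
  obtain ⟨⟨-, h2, h3, h4, -, h6, -⟩, -, -⟩ := hz
  refine ⟨?_, h2, h3, h4, h6⟩
  have h : (16 : ℝ) ≤ √(d.r2 z) := h16
  rw [Real.le_sqrt' (by norm_num)] at h
  linarith

/-- The conclusion of `tot_p` for the constants `p` and the thresholds `v`. -/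
def Hp (n : ℕ) (μ₀ ηA C : Cst → ℝ) (p : Cst) (v : ℝ × ℝ) : Prop :=
  ∀ (q : Cst) (d : Pk n), q.b_c' = p → Cnd n q → PkOk q d → ∀ z ∈ Us q d,
    ∀ c c' : Fin n → VV n → ℝ, H747.A.FdB q d (C p) c c' z → ∀ m : VV n → ℝ,
    Cp v.1 v.2 (min (μ₀ p) (1 / 400)) p.σ (cKE p * cEG p) (p.rT ^ 2 / 128) (d.N q z)
      (H747.A.GG q d z)
      (H747.A.D₂ q 2 0 (H747.A.ff q d z) (H747.A.rr d z)) (d.Kf q z) (H747.A.rr d z) q.R
      (d.sx.F (d.W q) z) (d.sy.F (d.W q) z) (m z) →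
    (∀ X Y : Fin n → ℝ, 2 * (m z * ((∑ i, X i ^ 2) + ∑ k, Y k ^ 2)) ≤
      Ch.TH d.sx d.sy (d.W q) z X Y + tc d.sx c (d.W q) z X + tc d.sy c' (d.W q) z Y) →
    H747.A.Tot d.sx d.sy 0 0 (d.W q) m c c' (ηA p) z

/-- The constants of the row as functions of the constants before `c'`. -/
theorem exists_v (hn : 1 ≤ n) {μ₀ ηA C : Cst → ℝ} (pμ : ∀ q, 0 < μ₀ q) (pη : ∀ q, 0 < ηA q)
    (pC : ∀ q, 0 < C q) (p : Cst) : ∃ v : ℝ × ℝ, 0 < v.1 ∧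
      (0 < p.σ → p.σ ≤ 1 / 5000 → 0 < p.e₁ → 0 < p.rT → 0 ≤ cKE p * cEG p →
        Hp n μ₀ ηA C p v) := by
  by_cases h : 0 < p.σ ∧ p.σ ≤ 1 / 5000 ∧ 0 < p.e₁ ∧ 0 < p.rT ∧ 0 ≤ cKE p * cEG p
  · obtain ⟨h0, h1, he, hr, hc⟩ := h
    obtain ⟨ε₁, hε, N₀, H⟩ := tot_p (p := p) hn h0 h1 he (Cf := C p) (pη p)
      (m₀ := min (μ₀ p) (1 / 400)) (lt_min (pμ p) (by norm_num)) hc
      (c₁ := p.rT ^ 2 / 128) (by positivity) (pC p).le
    exact ⟨(ε₁, N₀), hε, fun _ _ _ _ _ => H⟩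
  · exact ⟨(1, 0), one_pos, fun a b c d e => absurd ⟨a, b, c, d, e⟩ h⟩

section pt

variable {q : Cst} {d : Pk n} {z : VV n}

theorem GG_pos (ok : PkOk q d) (r0 : 0 < H747.A.rr d z) : 0 < H747.A.GG q d z :=
  ok.sl.G_pos (H747.A.ff q d z, H747.A.rr d z) r0

theorem N_nn (cn : Cnd n q) (ok : PkOk q d) : 0 ≤ d.N q z := cn.M0.trans (M_le_N ok _)

theorem cKE_nn (g : PhGood q.nm q.ν₁ q.aC q.ph) (h : 1 ≤ q.nm) : 0 ≤ cKE q := by
  have Cb0 := g.Cb0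
  have CT0 := g.CT0
  unfold cKE
  positivity

theorem cEG_nn : 0 ≤ cEG q := by
  unfold cEG
  positivity

/-- The margin. -/
theorem mA_ge {μ₀ : Cst → ℝ} (cn : Cnd n q) (ok : PkOk q d) (r0 : 0 < H747.A.rr d z) :
    min (μ₀ q) (1 / 400) * (H747.A.GG q d z / H747.A.rr d z +
      q.σ * (d.N q z + H747.A.GG q d z) / q.R) ≤ H747.A.mA μ₀ q d z := by
  have G0 := GG_pos ok r0
  have N0 := N_nn (z := z) cn ok
  have hσ := cn.σ0
  have hR := one_pos.trans_le cn.R1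
  have hm : H747.A.mA μ₀ q d z = μ₀ q * (H747.A.GG q d z / H747.A.rr d z) +
      q.σ / (400 * q.R) * (d.N q z + H747.A.GG q d z) := rfl
  have q1 : 0 ≤ H747.A.GG q d z / H747.A.rr d z := by positivity
  have q2 : 0 ≤ q.σ * (d.N q z + H747.A.GG q d z) / q.R := by positivity
  have b1 := mul_le_mul_of_nonneg_right (min_le_left (μ₀ q) (1 / 400)) q1
  have b2 := mul_le_mul_of_nonneg_right (min_le_right (μ₀ q) (1 / 400)) q2
  have b3 : 1 / 400 * (q.σ * (d.N q z + H747.A.GG q d z) / q.R) =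
      q.σ / (400 * q.R) * (d.N q z + H747.A.GG q d z) := by
    field_simp
  rw [hm, mul_add]
  linarith

theorem mA_nn {μ₀ : Cst → ℝ} (pμ : 0 < μ₀ q) (cn : Cnd n q) (ok : PkOk q d)
    (r0 : 0 < H747.A.rr d z) : 0 ≤ H747.A.mA μ₀ q d z := by
  refine le_trans ?_ (mA_ge (μ₀ := μ₀) cn ok r0)
  have G0 := GG_pos ok r0
  have N0 := N_nn (z := z) cn ok
  have hσ := cn.σ0
  have hR := one_pos.trans_le cn.R1
  have m0 : 0 ≤ min (μ₀ q) (1 / 400) := le_min pμ.le (by norm_num)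
  positivity

/-- `K ≤ C G / r`. -/
theorem KG_le (cn : Cnd n q) (ok : PkOk q d) (g : PhGood q.nm q.ν₁ q.aC q.ph) (h1 : 1 ≤ q.nm)
    (hz : z ∈ H747.A.OmB q d) (hr : 15 ≤ H747.A.rr d z) :
    d.Kf q z ≤ cKE q * cEG q * (H747.A.GG q d z / H747.A.rr d z) := by
  have k := K_le cn ok g (zero_le_one.trans h1) hz.2.2.2.2.2.1 hz.2.2.2.2.2.2
  have e := E_le cn ok (u := d.u q z) (r := H747.A.rr d z) hr
  have e' : q.D 1 0 (d.u q z + Real.log (prS q.e₁ (H747.A.rr d z ^ 2)),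
    H747.A.rr d z) = H747.A.GG q d z := rfl
  rw [e'] at e
  calc d.Kf q z ≤ cKE q * Real.exp (d.u q z) := k
    _ ≤ cKE q * (cEG q * (H747.A.GG q d z / H747.A.rr d z)) :=
      mul_le_mul_of_nonneg_left e (cKE_nn g h1)
    _ = _ := by ring

/-- `g² ≤ c' (G / r) (N + G)²`. -/
theorem gg_le (cn : Cnd n q) (ok : PkOk q d) (r0 : 0 < H747.A.rr d z) {ε : ℝ} (hε : q.c' ≤ ε) :
    H747.A.D₂ q 2 0 (H747.A.ff q d z) (H747.A.rr d z) ^ 2 ≤
      ε * (H747.A.GG q d z / H747.A.rr d z) * (d.N q z + H747.A.GG q d z) ^ 2 := by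
  have G0 := GG_pos ok r0
  have hsl : H747.A.D₂ q 2 0 (H747.A.ff q d z) (H747.A.rr d z) ^ 2 * H747.A.rr d z ≤
      q.c' * (H747.A.GG q d z * (q.M₀ + H747.A.GG q d z) ^ 2) :=
    ok.sl.slow (H747.A.ff q d z, H747.A.rr d z) r0
  have t1 : H747.A.D₂ q 2 0 (H747.A.ff q d z) (H747.A.rr d z) ^ 2 ≤
      q.c' * (H747.A.GG q d z / H747.A.rr d z) * (q.M₀ + H747.A.GG q d z) ^ 2 := by
    rw [show q.c' * (H747.A.GG q d z / H747.A.rr d z) * (q.M₀ + H747.A.GG q d z) ^ 2 =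
      q.c' * (H747.A.GG q d z * (q.M₀ + H747.A.GG q d z) ^ 2) / H747.A.rr d z by ring,
      le_div_iff₀ r0]
    exact hsl
  refine t1.trans ?_
  have hN : q.M₀ ≤ d.N q z := M_le_N ok _
  have q1 : 0 ≤ H747.A.GG q d z / H747.A.rr d z := by positivity
  have t2 : (q.M₀ + H747.A.GG q d z) ^ 2 ≤ (d.N q z + H747.A.GG q d z) ^ 2 :=
    pow_le_pow_left₀ (add_nonneg cn.M0 G0.le) (by linarith) 2
  exact mul_le_mul (mul_le_mul_of_nonneg_right hε q1) t2 (sq_nonneg _)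
    (mul_nonneg (cn.c0.trans hε) q1)

theorem F1_ge (cn : Cnd n q) (ok : PkOk q d) (hz : z ∈ H747.A.OmA q d) :
    q.rT ^ 2 / 128 * (d.N q z + H747.A.GG q d z) ^ 2 ≤ d.sx.F (d.W q) z ∧
    q.rT ^ 2 / 128 * (d.N q z + H747.A.GG q d z) ^ 2 ≤ d.sy.F (d.W q) z := by
  have h := F_ge_x cn ok z
  have h' := F_ge_y cn ok z
  have h2 : (q.rT / 8 * (d.N q z + H747.A.GG q d z)) ^ 2 < H747.A.Wx2 q d z := hz.2.1
  have h3 : (q.rT / 8 * (d.N q z + H747.A.GG q d z)) ^ 2 < H747.A.Wy2 q d z := hz.2.2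
  have e : q.rT ^ 2 / 128 * (d.N q z + H747.A.GG q d z) ^ 2 =
      1 / 2 * (q.rT / 8 * (d.N q z + H747.A.GG q d z)) ^ 2 := by ring
  rw [e]
  constructor <;> linarith

/-- **All conditions at a point.** -/
theorem cp_pt {μ₀ : Cst → ℝ} (cn : Cnd n q) (ok : PkOk q d) (g : PhGood q.nm q.ν₁ q.aC q.ph)
    (h1 : 1 ≤ q.nm) (hz : z ∈ H747.A.OmA q d) (h16 : 16 ≤ H747.A.rr d z) {v : ℝ × ℝ}
    (hc' : q.c' ≤ v.1) (hM : v.2 ≤ q.M₀) :
    Cp v.1 v.2 (min (μ₀ q) (1 / 400)) q.σ (cKE q * cEG q) (q.rT ^ 2 / 128) (d.N q z)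
      (H747.A.GG q d z)
      (H747.A.D₂ q 2 0 (H747.A.ff q d z) (H747.A.rr d z)) (d.Kf q z) (H747.A.rr d z) q.R
      (d.sx.F (d.W q) z) (d.sy.F (d.W q) z) (H747.A.mA μ₀ q d z) where
  mm := mA_ge cn ok (by linarith)
  KG := KG_le cn ok g h1 hz.1 (by linarith)
  F1 := (F1_ge cn ok hz).1
  F2 := (F1_ge cn ok hz).2
  gg := gg_le cn ok (by linarith) hc'
  NN := hM.trans (M_le_N ok _)

theorem crt_pt {m : VV n → ℝ} {c c' : Fin n → VV n → ℝ} (hm0 : 0 ≤ m z)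
    (crt : H747.A.Crt q d m c c' z) (X Y : Fin n → ℝ) :
    2 * (m z * ((∑ i, X i ^ 2) + ∑ k, Y k ^ 2)) ≤
      Ch.TH d.sx d.sy (d.W q) z X Y + tc d.sx c (d.W q) z X + tc d.sy c' (d.W q) z Y := by
  have h := crt X Y
  have s1 : H230.W.dd X X = ∑ i, X i ^ 2 := Finset.sum_congr rfl fun i _ => (pow_two _).symm
  have s2 : H230.W.dd Y Y = ∑ i, Y i ^ 2 := Finset.sum_congr rfl fun i _ => (pow_two _).symm
  rw [s1, s2] at h
  have s3 : 0 ≤ (∑ i, X i ^ 2) + ∑ k, Y k ^ 2 :=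
    add_nonneg (Finset.sum_nonneg fun _ _ => sq_nonneg _)
      (Finset.sum_nonneg fun _ _ => sq_nonneg _)
  have s4 := mul_nonneg hm0 s3
  linarith

end pt

/-- **Row A-TOT-F.** -/
theorem rowTotF (hn : 1 ≤ n) : H747.A.RowTotF n := by
  intro μ₀ ηA C nμ nη nC pμ pη pC
  choose v hv H using exists_v (n := n) hn pμ pη pC
  have k1 : EvC fun q => q.c' ≤ (v q.b_c').1 :=
    EvC.at_c' (fun q t => t ≤ (v q).1) fun q => sml_le (hv q)
  have k2 : EvC fun q => (v q.b_c').2 ≤ q.M₀ :=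
    EvC.at_M₀ (fun q t => (v q.b_c').2 ≤ t) fun q => eventually_ge_atTop _
  refine (((ev_cnd n).and (k1.and k2)).and (EvC.good.and EvC.pos)).mono ?_
  rintro q ⟨⟨cn, hc', hM⟩, ⟨⟨g, -⟩, -⟩, ⟨a1, a2, a3, a4, a5, a6, a7, a8, a9, a10⟩, -⟩
  intro d ok z hz h16 c c' crt fd
  have h16' : 16 ≤ H747.A.rr d z := h16
  have hm0 := mA_nn (z := z) (pμ q) cn ok (by linarith)
  have e0 : 0 ≤ cKE q * cEG q := mul_nonneg (cKE_nn g a3) cEG_nn
  have e : Hp n μ₀ ηA C q.b_c' (v q.b_c') := H q.b_c' cn.σ0 cn.σ1 cn.e₁ a8 e0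
  have cp := cp_pt (μ₀ := μ₀) cn ok g a3 hz h16' hc' hM
  have key := e q d rfl cn ok z (OmA_Us cn hz h16') c c' (by rw [nC q]; exact fd)
    (H747.A.mA μ₀ q d) (by rw [nμ q]; exact cp) (crt_pt hm0 crt)
  rwa [nη q] at key

end Vale.Agent.P088.R2.H657.A
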