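import Vale.Agent.P088.R2.H657.W.Close
import Vale.Agent.P088.R2.H657.W.Fam
import Vale.Agent.P088.R2.H768.W.FarI

/-!
# P088, stage 3, zone A: the far family `W = Φ(l(x) + l(y)) + Ψ(u + log S(r²), r)` (`c < r²`)

The data `Wt`, `Fs1`, `Rk` of the shift from the symbol bounds of helper644 and `IsSlow`.
-/

open Set Filter
open scoped ContDiff Topology Matrix

noncomputable section

namespace Vale.Agent.P088.R2.H657.A

open Vale.Agent.P088.LR Vale.Agent.P088.HY Vale.Agent.P088.R2.H31.EP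
open Vale.Agent.P088.R2.H644.Sy Vale.Agent.P088.R2.H464.Cu Vale.Agent.P088.R2.H961.GW
open Vale.Agent.P088.R2.H644.Ep Vale.Agent.P088.R2.H657.W Vale.Agent.P088.R2.H768.W
open Vale.Agent.P088.R2.H768.FarI

section gen

variable {α E : Type*} [NormedAddCommGroup E] [NormedSpace ℝ E] {U : α → Set E}
  {u : α → E → ℝ} {Ph : α → ℝ → ℝ} {N K w : α → E → ℝ} {k : ℕ}

theorem dd_Ph (s : Sp U u Ph N K w k) (v : E) {a : α} {z : E} (hz : z ∈ U a) :
    dd v (fun z => Ph a (u a z)) z = deriv (Ph a) (u a z) * dd v (u a) z := by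
  have d1 : DifferentiableAt ℝ (u a) z :=
    ((s.su a z hz).contDiffAt ((s.op a).mem_nhds hz)).differentiableAt (by simp)
  have d2 : HasDerivAt (Ph a) (deriv (Ph a) (u a z)) (u a z) :=
    ((s.sΦ a).contDiffAt.differentiableAt (by simp)).hasDerivAt
  have h := d2.comp_hasFDerivAt z d1.hasFDerivAt
  have e : dd v (fun z => Ph a (u a z)) z = fderiv ℝ (Ph a ∘ u a) z v := rfl
  rw [e, h.fderiv]
  rfl

/-- First derivatives of the slope part in arbitrary directions. -/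
theorem Sp_v1 (s : Sp U u Ph N K w k) (v : E) :
    So U N (k + 1) fun a => dd v (fun z => Ph a (u a z)) := by
  have h1 := (s.p1.mono_k (Nat.le_succ (k + 1))).mul s.op (s.du.dir s.op v)
  refine (h1.congr s.op fun a z hz => ?_).wcongr fun _ _ _ => by ring
  exact dd_Ph s v hz

/-- Second derivatives. -/
theorem Sp_v2 (s : Sp U u Ph N K w k) (v v' : E) :
    So U (fun a z => K a z + N a z * w a z) k fun a => dd v (dd v' (fun z => Ph a (u a z))) := by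
  have hU := s.op
  have h1 := (s.p2.mono_k (Nat.le_succ k)).mul hU
    (((s.du.mono_k (Nat.le_succ k)).dir hU v).mul hU ((s.du.mono_k (Nat.le_succ k)).dir hU v'))
  have h2 := (s.p1.mono_k (Nat.le_add_right k 2)).mul hU (s.ddu.ap2 hU s.su v' v)
  have h3 := Sf.add' hU one_pos' (fun a z hz => by simpa using s.K0 a z hz)
    (fun a z hz => mul_nonneg (s.N0 a z hz) (s.w0 a z hz)) h1 h2
  refine (h3.congr hU fun a z hz => ?_).wcongr fun _ _ _ => by ring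
  have e1 : dd v (dd v' (fun z => Ph a (u a z))) z =
      dd v (fun z => deriv (Ph a) (u a z) * dd v' (u a) z) z :=
    dd_congr hU (f := fun a => dd v' (fun z => Ph a (u a z)))
      (f' := fun a z => deriv (Ph a) (u a z) * dd v' (u a) z) v (fun a z hz => dd_Ph s v' hz) hz
  have d1 : DifferentiableAt ℝ (fun z => deriv (Ph a) (u a z)) z :=
    ((s.p1.sm a z hz).contDiffAt ((hU a).mem_nhds hz)).differentiableAt (by simp)
  have s2 : ContDiffOn ℝ ∞ (dd v' (u a)) (U a) := sm_dd (hU a) (s.su a) v'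
  have d2 : DifferentiableAt ℝ (dd v' (u a)) z :=
    ((s2 z hz).contDiffAt ((hU a).mem_nhds hz)).differentiableAt (by simp)
  have d3 : DifferentiableAt ℝ (u a) z :=
    ((s.su a z hz).contDiffAt ((hU a).mem_nhds hz)).differentiableAt (by simp)
  have d4 : HasDerivAt (deriv (Ph a)) (deriv (deriv (Ph a)) (u a z)) (u a z) :=
    ((contDiff_infty_iff_deriv.1 (s.sΦ a)).2.contDiffAt.differentiableAt (by simp)).hasDerivAt
  have d5 := (d4.comp_hasFDerivAt z d3.hasFDerivAt).fderiv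
  rw [e1]
  unfold H657.W.dd at *
  rw [fderiv_fun_mul d1 d2]
  have e2 : fderiv ℝ (fun z => deriv (Ph a) (u a z)) z =
      deriv (deriv (Ph a)) (u a z) • fderiv ℝ (u a) z := d5
  rw [e2]
  simp only [_root_.add_apply, _root_.smul_apply, smul_eq_mul]
  ring

end gen

variable {n : ℕ} {α : Type*} {O : α → Set (V n)} {U : α → Set (VV n)} {R : α → ℝ}
  {l : α → V n → ℝ} {s₁ s₂ : α → MF n} {Ph : α → ℝ → ℝ} {A c : ℝ} {S S₁ : ℝ → ℝ}
  {Ds : α → ℕ → ℕ → ℝ × ℝ → ℝ} {us : α → ℝ × ℝ → ℝ} {M τ r₁ : α → ℝ} {es c' : ℝ}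
  {Cb : ℕ → ℕ → ℝ}

/-- The slopes along `u`. -/
structure Sc (U : α → Set (VV n)) (l : α → V n → ℝ) (Ph : α → ℝ → ℝ) : Prop where
  s : ∀ a, ContDiff ℝ ∞ (Ph a)
  n : ∀ a, ∀ z ∈ U a, 0 ≤ deriv (Ph a) (uf (l a) z)
  k : ∀ a, ∀ z ∈ U a, 0 ≤ deriv (deriv (Ph a)) (uf (l a) z)
  kn : ∃ C, 0 ≤ C ∧ ∀ a, ∀ z ∈ U a,
    deriv (deriv (Ph a)) (uf (l a) z) ≤ C * deriv (Ph a) (uf (l a) z)
  kd : ∀ j ≤ 3, ∃ C, ∀ a, ∀ z ∈ U a,
    |iteratedDeriv (j + 2) (Ph a) (uf (l a) z)| ≤ C * deriv (deriv (Ph a)) (uf (l a) z)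

/-- The functions of the family. -/
def fN (l : α → V n → ℝ) (Ph : α → ℝ → ℝ) (a : α) (z : VV n) : ℝ := deriv (Ph a) (uf (l a) z)

def fK (l : α → V n → ℝ) (Ph : α → ℝ → ℝ) (a : α) (z : VV n) : ℝ :=
  deriv (deriv (Ph a)) (uf (l a) z)

def fr (s₁ : α → MF n) (a : α) (z : VV n) : ℝ := √(r2 (gi (s₁ a)) z)

def fφ (S : ℝ → ℝ) (l : α → V n → ℝ) (s₁ : α → MF n) (a : α) (z : VV n) : ℝ :=
  uf (l a) z + Real.log (S (r2 (gi (s₁ a)) z))

def feu (l : α → V n → ℝ) (Ph : α → ℝ → ℝ) (R : α → ℝ) (a : α) (z : VV n) : ℝ :=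
  fK l Ph a z + fN l Ph a z * (R a)⁻¹

theorem sp_of (L : Lg O U R l (fun a => gi (s₁ a)) A 4) (p : Sc U l Ph) :
    Sp U (fun a => uf (l a)) Ph (fN l Ph) (fK l Ph) (fun a _ => (R a)⁻¹) 2 where
  op := L.oU
  su a := L.sm_uf a
  sΦ := p.s
  N0 := p.n
  K0 := p.k
  w0 a _ _ := inv_nonneg.2 (L.R0 a).le
  du := (L.s_uf.mono_k (by omega : 3 ≤ 4)).mono_ρ (fun a _ _ => L.R0 a) (fun _ _ _ => one_pos)
    (fun _ _ _ => zero_le_one) (A := 1) fun a _ _ => by rw [one_mul]; exact L.R1 a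
  ddu := (((L.s_uf.mono_k (by omega : 3 ≤ 4)).fd L.oU).wcongr (g₁ := fun a _ => (R a)⁻¹)
    fun _ _ _ => by simp).mono_ρ (fun a _ _ => L.R0 a) (fun _ _ _ => one_pos)
    (fun a _ _ => inv_nonneg.2 (L.R0 a).le) (A := 1) fun a _ _ => by rw [one_mul]; exact L.R1 a
  n1 := ⟨1, fun a z hz => by rw [abs_of_nonneg (p.n a z hz), one_mul]; exact le_rfl⟩
  n2 j hj := p.kd j (by omega)
  KN := p.kn

/-- The slope part may be changed off `U`. -/
theorem Wt_congr {E : Type*} [NormedAddCommGroup E] [NormedSpace ℝ E] {U : α → Set E}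
    {φ r G Nn eu Rs : α → E → ℝ} {D : α → ℕ → ℕ → ℝ → ℝ → ℝ} {Wu Wu' : α → E → ℝ}
    (w : Wt U φ r G Nn eu Rs D Wu) (h : ∀ a, ∀ z ∈ U a, Wu' a z = Wu a z) :
    Wt U φ r G Nn eu Rs D Wu' :=
  have hU := w.fc.op
  have h1 : ∀ v, ∀ a, ∀ z ∈ U a, dd v (Wu' a) z = dd v (Wu a) z := fun v a z hz =>
    dd_congr hU v h hz
  { fc := w.fc
    N0 := w.N0
    eu0 := w.eu0
    u1 := fun v => (w.u1 v).congr hU (h1 v)
    u2 := fun v t => (w.u2 v t).congr hU fun a z hz =>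
      dd_congr hU (f := fun a => dd t (Wu' a)) (f' := fun a => dd t (Wu a)) v (h1 t) hz
    Ne := w.Ne
    su := fun a => (w.su a).congr (h a) }

/-- **The weight data of the far family.** -/
theorem wt_of (L : Lg O U R l (fun a => gi (s₁ a)) A 4) (hS : H644.Ch.LS c S S₁)
    (h0 : ∀ a, ∀ z ∈ U a, c < r2 (gi (s₁ a)) z) (p : Sc U l Ph)
    (sl : ∀ a, IsSlow es (M a) c' (τ a) (r₁ a) Cb (us a) (Ds a)) :
    Wt U (fφ S l s₁) (fr s₁) (gD Ds (fφ S l s₁) (fr s₁) 1 0) (fN l Ph) (feu l Ph R)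
      (fun a _ => R a) (cD Ds) (fun a z => Ph a (uf (l a) z)) := by
  have hw : H644.Ch.Wf U (fun a => uf (l a)) (fun a => r2 (gi (s₁ a))) 4 c :=
  { op := L.oU
    su := fun a => L.sm_uf a
    hρ := h0
    du := by
      refine L.s_uf.mono_ρ (fun a _ _ => L.R0 a)
        (fun a z hz => Real.sqrt_pos.2 (hS.c0.trans (h0 a z hz))) (fun _ _ _ => zero_le_one)
        (A := A) fun a z hz => L.rR a z hz
    dρ := L.s_r2 hS.c0.le h0 }
  have s := sp_of L p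
  have rc : ∃ c > 0, ∀ a, ∀ z ∈ U a, c ≤ fr s₁ a z :=
    ⟨√c, Real.sqrt_pos.2 hS.c0, fun a z hz => Real.sqrt_le_sqrt (h0 a z hz).le⟩
  exact
  { fc := fc_of sl L.oU rc (fun a => hS.sfg hw a) (hS.dfg hw) (hw.sqrt hS.c0)
    N0 := p.n
    eu0 := fun a z hz => add_nonneg (p.k a z hz)
      (mul_nonneg (p.n a z hz) (inv_nonneg.2 (L.R0 a).le))
    u1 := fun v => Sp_v1 s v
    u2 := fun v w => Sp_v2 s v w
    Ne := ⟨1, fun a z hz => by
      rw [one_mul]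
      exact le_add_of_nonneg_left (p.k a z hz)⟩
    su := fun a => s.sW a }

section slots

variable (oO : ∀ a, IsOpen (O a)) (oU : ∀ a, IsOpen (U a))

include oO oU

theorem s1_of (hx : ∀ a, ∀ z ∈ U a, z.1 ∈ O a) (hR : ∀ a, 1 ≤ R a) {e : α → ℝ}
    (h : ∀ a, TR 4 (e a) (R a) (s₂ a)) (e0 : ∀ a, 0 ≤ e a) {B : ℝ} (eB : ∀ a, e a ≤ B)
    {r : α → VV n → ℝ} (r0 : ∀ a, ∀ z ∈ U a, 0 < r a z) (rR : ∀ a, ∀ z ∈ U a, r a z ≤ A * R a) :
    Fs1 (fun a => sx (s₂ a)) ex U r (fun a _ => R a) where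
  fs := fs_x oO hx (fun a => one_pos.trans_le (hR a))
    fun i j => TR.sf1 h oO (fun a => one_pos.trans_le (hR a)) e0 eB i j
  ok a := by
    have f : Fr0 (fun _ => 1) (s₂ a) (univ : Set (V n)) :=
      ⟨isOpen_univ, fun _ _ => one_pos, contDiffOn_const, fun i j => ((h a).sm i j).contDiffOn,
        (h a).sy⟩
    exact ⟨_, okx f f (oU a) fun _ _ => ⟨mem_univ _, mem_univ _⟩⟩
  Rs0 a _ _ := one_pos.trans_le (hR a)
  r0 := r0
  rR := ⟨A, rR⟩
  R1 := ⟨1, one_pos, fun a _ _ => hR a⟩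

theorem s2_of (hy : ∀ a, ∀ z ∈ U a, z.2 ∈ O a) (hR : ∀ a, 1 ≤ R a) {e : α → ℝ}
    (h : ∀ a, TR 4 (e a) (R a) (s₂ a)) (e0 : ∀ a, 0 ≤ e a) {B : ℝ} (eB : ∀ a, e a ≤ B)
    {r : α → VV n → ℝ} (r0 : ∀ a, ∀ z ∈ U a, 0 < r a z) (rR : ∀ a, ∀ z ∈ U a, r a z ≤ A * R a) :
    Fs1 (fun a => sy (s₂ a)) ey U r (fun a _ => R a) where
  fs := fs_y oO hy (fun a => one_pos.trans_le (hR a))
    fun i j => TR.sf1 h oO (fun a => one_pos.trans_le (hR a)) e0 eB i j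
  ok a := by
    have f : Fr0 (fun _ => 1) (s₂ a) (univ : Set (V n)) :=
      ⟨isOpen_univ, fun _ _ => one_pos, contDiffOn_const, fun i j => ((h a).sm i j).contDiffOn,
        (h a).sy⟩
    exact ⟨_, oky f f (oU a) fun _ _ => ⟨mem_univ _, mem_univ _⟩⟩
  Rs0 a _ _ := one_pos.trans_le (hR a)
  r0 := r0
  rR := ⟨A, rR⟩
  R1 := ⟨1, one_pos, fun a _ _ => hR a⟩

end slots

end Vale.Agent.P088.R2.H657.A
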