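import Vale.Agent.P088.R2.H657.A.Fi
import Vale.Agent.P088.R2.H747.A.Row

/-!
# P088, stage 3, zone A: the pointwise total inequality of the far family
-/

open Set Filter
open scoped ContDiff Topology Matrix

noncomputable section

namespace Vale.Agent.P088.R2.H657.A

open Vale.Agent.P088.LR Vale.Agent.P088.HY Vale.Agent.P088.R2.H31.EP
open Vale.Agent.P088.R2.H644.Sy Vale.Agent.P088.R2.H464.Cu Vale.Agent.P088.R2.H961.GW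
open Vale.Agent.P088.R2.H644.Ep Vale.Agent.P088.R2.H657.W Vale.Agent.P088.R2.H768.W
open Vale.Agent.P088.R2.H768.FarI Vale.Agent.P088.R2.H644 Vale.Agent.P088.R2.H960.W

/-! ## Monotonicity of `IsSlow` -/

theorem IsSlow_mono {ε ε' N c c' τ r₁ : ℝ} {Cb : ℕ → ℕ → ℝ} {u : E2 → ℝ} {D : ℕ → ℕ → E2 → ℝ}
    (h : IsSlow ε N c τ r₁ Cb u D) (hε : ε ≤ ε') (hc : c ≤ c') (hN : 0 ≤ N) :
    IsSlow ε' N c' τ r₁ (fun i j => |Cb i j|) u D :=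
  { h with
    G_u := fun z hz => (h.G_u z hz).trans
      (mul_le_mul_of_nonneg_right hε (Real.exp_pos _).le)
    psi := fun z hz => (h.psi z hz).trans (mul_le_mul_of_nonneg_right hε (sq_nonneg _))
    mu := fun z hz => (h.mu z hz).trans (mul_le_mul_of_nonneg_right hε (h.G_pos z hz).le)
    om := fun z hz => (h.om z hz).trans (mul_le_mul_of_nonneg_right hε (h.g_pos z hz).le)
    s0 := fun z hz => (h.s0 z hz).trans (mul_le_mul_of_nonneg_right hε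
      (div_nonneg (mul_nonneg (h.G_pos z hz).le (h.g_pos z hz).le) hz.le))
    conv := fun z hz => (h.conv z hz).trans (mul_le_mul_of_nonneg_right
      (mul_le_mul_of_nonneg_right hε (div_nonneg hN hz.le))
      (mul_nonneg (h.G_pos z hz).le (h.g_pos z hz).le))
    slow := fun z hz => (h.slow z hz).trans (mul_le_mul_of_nonneg_right hc
      (mul_nonneg (h.G_pos z hz).le (sq_nonneg _)))
    hij := fun i j z hz hij => (h.hij i j z hz hij).trans (mul_le_mul_of_nonneg_right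
      (le_abs_self _) (div_nonneg (h.g_pos z hz).le hz.le))
    bd1 := fun i j z hz hij => (h.bd1 i j z hz hij).trans (mul_le_mul_of_nonneg_right
      (le_abs_self _) (h.G_pos z hz).le)
    bd2 := fun i j z hz hij => (h.bd2 i j z hz hij).trans (mul_le_mul_of_nonneg_right
      (le_abs_self _) (h.g_pos z hz).le) }

/-! ## The family -/

variable {n : ℕ} {α : Type*} {O : α → Set (V n)} {U : α → Set (VV n)} {R : α → ℝ}
  {l : α → V n → ℝ} {s₁ s₂ : α → MF n} {Ph : α → ℝ → ℝ} {A c : ℝ} {S S₁ : ℝ → ℝ}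
  {Ds : α → ℕ → ℕ → ℝ × ℝ → ℝ} {us : α → ℝ × ℝ → ℝ} {M τ r₁ e : α → ℝ} {Cb : ℕ → ℕ → ℝ}
  {cx cy : α → Fin n → VV n → ℝ}

/-- `G = D₁₀`, `g = D₂₀` along `(φ, r)`. -/
def fG (S : ℝ → ℝ) (l : α → V n → ℝ) (s₁ : α → MF n) (Ds : α → ℕ → ℕ → ℝ × ℝ → ℝ) (i j : ℕ)
    (a : α) (z : VV n) : ℝ := gD Ds (fφ S l s₁) (fr s₁) i j a z

/-- The weight `Φ(l(x) + l(y)) + Ψ(u + log S(r²), r)`. -/
def fW (S : ℝ → ℝ) (l : α → V n → ℝ) (s₁ : α → MF n) (Ph : α → ℝ → ℝ)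
    (Ds : α → ℕ → ℕ → ℝ × ℝ → ℝ) (a : α) (z : VV n) : ℝ :=
  Ph a (uf (l a) z) + Ds a 0 0 (fφ S l s₁ a z, fr s₁ a z)

theorem fW_eq (a : α) : fW S l s₁ Ph Ds a =
    Ww (cD Ds) (fφ S l s₁) (fr s₁) (fun a z => Ph a (uf (l a) z)) a := rfl

/-- **The data of the far family.** -/
structure FD (O : α → Set (V n)) (U : α → Set (VV n)) (R : α → ℝ) (l : α → V n → ℝ)
    (s₁ s₂ : α → MF n) (Ph : α → ℝ → ℝ) (A c : ℝ) (S S₁ : ℝ → ℝ)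
    (Ds : α → ℕ → ℕ → ℝ × ℝ → ℝ) (us : α → ℝ × ℝ → ℝ) (M τ r₁ e : α → ℝ) (Cb : ℕ → ℕ → ℝ) :
    Prop where
  L : Lg O U R l (fun a => gi (s₁ a)) A 4
  t₁ : ∀ a, TR 4 (e a) (R a) (s₁ a)
  t₂ : ∀ a, TR 4 (e a) (R a) (s₂ a)
  e0 : ∀ a, 0 ≤ e a
  e1 : ∀ a, e a ≤ 1
  en : ∀ a, n * e a ≤ 1 / 2
  hS : H644.Ch.LS c S S₁
  h0 : ∀ a, ∀ z ∈ U a, c < r2 (gi (s₁ a)) z
  p : Sc U l Ph
  M0 : ∀ a, 0 ≤ M a
  C0 : ∀ i j, 0 ≤ Cb i j
  sl : ∀ a, IsSlow 1 (M a) 1 (τ a) (r₁ a) Cb (us a) (Ds a)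

theorem fr_pos (D : FD O U R l s₁ s₂ Ph A c S S₁ Ds us M τ r₁ e Cb) {a : α} {z : VV n}
    (hz : z ∈ U a) : 0 < fr s₁ a z := Real.sqrt_pos.2 (D.hS.c0.trans (D.h0 a z hz))

theorem bf_le {T : Matrix (Fin n) (Fin n) ℝ} {ε : ℝ} (hε : n * ε ≤ 1 / 2)
    (h : ∀ i j, |T i j - (1 : Matrix (Fin n) (Fin n) ℝ) i j| ≤ ε) (v : V n) :
    |(∑ i, ∑ j, T i j * v i * v j) - ∑ i, v i ^ 2| ≤ 1 / 2 * ∑ i, v i ^ 2 := by
  have e1 : (∑ i, ∑ j, T i j * v i * v j) - ∑ i, v i ^ 2 =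
      ∑ i, ∑ j, (T i j - (1 : Matrix (Fin n) (Fin n) ℝ) i j) * v i * v j := by
    simp only [sub_mul, Finset.sum_sub_distrib]
    congr 1
    refine Finset.sum_congr rfl fun i _ => ?_
    simp [Matrix.one_apply, pow_two]
  rw [e1]
  have hv : 0 ≤ ∑ i, v i ^ 2 := Finset.sum_nonneg fun _ _ => sq_nonneg _
  calc |∑ i, ∑ j, (T i j - (1 : Matrix (Fin n) (Fin n) ℝ) i j) * v i * v j| ≤
        ∑ i, ∑ j, |(T i j - (1 : Matrix (Fin n) (Fin n) ℝ) i j) * v i * v j| :=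
        (Finset.abs_sum_le_sum_abs _ _).trans (Finset.sum_le_sum fun i _ =>
          Finset.abs_sum_le_sum_abs _ _)
    _ ≤ ∑ i, ∑ j, ε * (1 / 2 * v i ^ 2 + 1 / 2 * v j ^ 2) := by
        refine Finset.sum_le_sum fun i _ => Finset.sum_le_sum fun j _ => ?_
        rw [abs_mul, abs_mul, mul_assoc]
        refine mul_le_mul (h i j) ?_ (by positivity) ((abs_nonneg _).trans (h i j))
        nlinarith [sq_nonneg (|v i| - |v j|), sq_abs (v i), sq_abs (v j)]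
    _ = n * ε * ∑ i, v i ^ 2 := by
        simp only [← Finset.mul_sum, Finset.sum_add_distrib, Finset.sum_const, Finset.card_univ,
          Fintype.card_fin, nsmul_eq_mul]
        ring
    _ ≤ _ := mul_le_mul_of_nonneg_right hε hv

theorem TR.b0 {K : ℕ} {ε ρ : ℝ} {s : MF n} (h : TR K ε ρ s) (x : V n) (i j : Fin n) :
    |s x i j - (1 : Matrix (Fin n) (Fin n) ℝ) i j| ≤ ε := by
  have := h.cl i j 0 (Nat.zero_le _) x
  simpa using this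

theorem ss_x {K : ℕ} {ε ρ : ℝ} {s : MF n} (h : TR K ε ρ s) (hε : n * ε ≤ 1 / 2) (z : VV n)
    (v : Fin n → ℝ) : 0 ≤ ∑ i, ∑ j, (sx s).s i j z * v i * v j ∧
      H747.SW.ss (sx s) v z ≤ 2 * ∑ i, v i ^ 2 := by
  have h1 := bf_le hε (fun i j => TR.b0 h z.1 i j) v
  have hv : 0 ≤ ∑ i, v i ^ 2 := Finset.sum_nonneg fun _ _ => sq_nonneg _
  have h2 := (abs_le.1 h1).1
  have h3 := (abs_le.1 h1).2
  have e1 : H747.SW.ss (sx s) v z = ∑ i, ∑ j, s z.1 i j * v i * v j := rfl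
  have e2 : ∑ i, ∑ j, (sx s).s i j z * v i * v j = ∑ i, ∑ j, s z.1 i j * v i * v j := rfl
  rw [e1, e2]
  constructor <;> linarith

theorem ss_y {K : ℕ} {ε ρ : ℝ} {s : MF n} (h : TR K ε ρ s) (hε : n * ε ≤ 1 / 2) (z : VV n)
    (v : Fin n → ℝ) : 0 ≤ ∑ i, ∑ j, (sy s).s i j z * v i * v j ∧
      H747.SW.ss (sy s) v z ≤ 2 * ∑ i, v i ^ 2 := by
  have h1 := bf_le hε (fun i j => TR.b0 h z.2 i j) v
  have hv : 0 ≤ ∑ i, v i ^ 2 := Finset.sum_nonneg fun _ _ => sq_nonneg _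
  have h2 := (abs_le.1 h1).1
  have h3 := (abs_le.1 h1).2
  have e1 : H747.SW.ss (sy s) v z = ∑ i, ∑ j, s z.2 i j * v i * v j := rfl
  have e2 : ∑ i, ∑ j, (sy s).s i j z * v i * v j = ∑ i, ∑ j, s z.2 i j * v i * v j := rfl
  rw [e1, e2]
  constructor <;> linarith

/-- The closing conditions at a point, in the vocabulary of zone A. -/
structure Cp (ε₁ N₀ m₀ σ C₂ c₁ N G g K r R F F' m : ℝ) : Prop where
  mm : m₀ * (G / r + σ * (N + G) / R) ≤ m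
  KG : K ≤ C₂ * (G / r)
  F1 : c₁ * (N + G) ^ 2 ≤ F
  F2 : c₁ * (N + G) ^ 2 ≤ F'
  gg : g ^ 2 ≤ ε₁ * (G / r) * (N + G) ^ 2
  NN : N₀ ≤ N

/-- The arithmetic of the closing conditions. -/
theorem cp_alg {ε₀ N₀ m₀ σ C₂ c₁ Ck N G g K r R cv F F' m : ℝ} (hε : 0 < ε₀) (hm₀ : 0 < m₀)
    (hσ : 0 < σ) (hC₂ : 0 ≤ C₂) (hc₁ : 0 < c₁) (hCk : 0 ≤ Ck) (hG : 0 ≤ G) (hK : 0 ≤ K)
    (hr : 1 ≤ r) (hR : 1 ≤ R) (hKN : K ≤ Ck * N)
    (hN₀ : 1 ≤ N₀) (h1 : 1 ≤ ε₀ * c₁ * N₀) (h2 : 2 + Ck ≤ ε₀ * c₁ * N₀)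
    (h3 : 1 ≤ ε₀ * c₁ * m₀ * N₀)
    (hcv : cv ≤ N * (G / r))
    (h : Cp (ε₀ * c₁ * m₀) N₀ m₀ σ C₂ c₁ N G g K r R F F' m) :
    (0 ≤ m ∧ 0 ≤ c₁ * (N + G) ^ 2) ∧
    (G / r + (K + N * R⁻¹) ≤ (1 + C₂ + σ⁻¹) / m₀ * m ∧ 1 ≤ ε₀ * (c₁ * (N + G) ^ 2)) ∧
    (g ^ 2 ≤ ε₀ * (m * (c₁ * (N + G) ^ 2)) ∧
      G / r + (K + N * R⁻¹) ≤ ε₀ * (c₁ * (N + G) ^ 2)) ∧
    (N + G) * 0 ≤ ε₀ * (m * (c₁ * (N + G) ^ 2)) ∧ cv ≤ ε₀ * (m * (c₁ * (N + G) ^ 2)) := by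
  have hr0 : 0 < r := one_pos.trans_le hr
  have hR0 : 0 < R := one_pos.trans_le hR
  have N0 : 0 < N := by linarith [h.NN]
  have N1 : 1 ≤ N := by linarith [h.NN]
  have q1 : 0 ≤ G / r := div_nonneg hG hr0.le
  have q2 : 0 ≤ σ * (N + G) / R := by positivity
  have m1 : m₀ * (G / r) ≤ m := by nlinarith [h.mm]
  have m2 : m₀ * (σ * (N + G) / R) ≤ m := by nlinarith [h.mm]
  have hm : 0 ≤ m := le_trans (by positivity) m1
  have NG : N₀ ≤ N + G := by linarith [h.NN]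
  have NG1 : 1 ≤ N + G := by linarith
  have NG0 : 0 < N + G := by linarith
  have sq1 : N₀ * (N + G) ≤ (N + G) ^ 2 := by nlinarith
  have g1 : G / r ≤ G := div_le_self hG hr
  have g2 : N * R⁻¹ ≤ N := by
    rw [← div_eq_mul_inv]
    exact div_le_self N0.le hR
  have ec : 0 < ε₀ * c₁ := mul_pos hε hc₁
  have F0 : 0 ≤ c₁ * (N + G) ^ 2 := by positivity
  have w1 : ε₀ * c₁ * N₀ * (N + G) ≤ ε₀ * (c₁ * (N + G) ^ 2) := by
    calc ε₀ * c₁ * N₀ * (N + G) = ε₀ * c₁ * (N₀ * (N + G)) := by ring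
      _ ≤ ε₀ * c₁ * (N + G) ^ 2 := mul_le_mul_of_nonneg_left sq1 ec.le
      _ = _ := by ring
  refine ⟨⟨hm, F0⟩, ⟨?_, ?_⟩, ⟨?_, ?_⟩, ?_, ?_⟩
  · rw [div_mul_eq_mul_div, le_div_iff₀ hm₀]
    have a1 : m₀ * K ≤ C₂ * m := by
      calc m₀ * K ≤ m₀ * (C₂ * (G / r)) := mul_le_mul_of_nonneg_left h.KG hm₀.le
        _ = C₂ * (m₀ * (G / r)) := by ring
        _ ≤ C₂ * m := mul_le_mul_of_nonneg_left m1 hC₂
    have a2 : m₀ * (N * R⁻¹) ≤ σ⁻¹ * m := by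
      have : m₀ * (σ * N / R) ≤ m := by
        refine le_trans (mul_le_mul_of_nonneg_left ?_ hm₀.le) m2
        exact div_le_div_of_nonneg_right (mul_le_mul_of_nonneg_left (by linarith) hσ.le) hR0.le
      calc m₀ * (N * R⁻¹) = σ⁻¹ * (m₀ * (σ * N / R)) := by field_simp
        _ ≤ σ⁻¹ * m := mul_le_mul_of_nonneg_left this (inv_nonneg.2 hσ.le)
    linarith
  · have : ε₀ * c₁ * N₀ * 1 ≤ ε₀ * c₁ * N₀ * (N + G) :=
      mul_le_mul_of_nonneg_left NG1 (by positivity)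
    linarith
  · refine h.gg.trans ?_
    calc ε₀ * c₁ * m₀ * (G / r) * (N + G) ^ 2 = (m₀ * (G / r)) * (ε₀ * (c₁ * (N + G) ^ 2)) := by
          ring
      _ ≤ m * (ε₀ * (c₁ * (N + G) ^ 2)) := mul_le_mul_of_nonneg_right m1 (by positivity)
      _ = _ := by ring
  · have b1 : G / r + (K + N * R⁻¹) ≤ (2 + Ck) * (N + G) := by
      have : 0 ≤ Ck * G := mul_nonneg hCk hG
      nlinarith
    calc G / r + (K + N * R⁻¹) ≤ (2 + Ck) * (N + G) := b1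
      _ ≤ ε₀ * c₁ * N₀ * (N + G) := mul_le_mul_of_nonneg_right h2 NG0.le
      _ ≤ _ := w1
  · rw [mul_zero]; positivity
  · refine hcv.trans ?_
    have b1 : N ≤ ε₀ * c₁ * m₀ * (N + G) ^ 2 := by
      calc N = 1 * N := (one_mul N).symm
        _ ≤ ε₀ * c₁ * m₀ * N₀ * (N + G) :=
          mul_le_mul h3 (by linarith) N0.le (by positivity)
        _ = ε₀ * c₁ * m₀ * (N₀ * (N + G)) := by ring
        _ ≤ _ := mul_le_mul_of_nonneg_left sq1 (by positivity)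
    calc N * (G / r) ≤ ε₀ * c₁ * m₀ * (N + G) ^ 2 * (G / r) := mul_le_mul_of_nonneg_right b1 q1
      _ = (m₀ * (G / r)) * (ε₀ * (c₁ * (N + G) ^ 2)) := by ring
      _ ≤ m * (ε₀ * (c₁ * (N + G) ^ 2)) := mul_le_mul_of_nonneg_right m1 (by positivity)
      _ = _ := by ring

/-- **The pointwise total inequality of the far family.** -/
theorem FD.tot [Nonempty (Fin n)] (D : FD O U R l s₁ s₂ Ph A c S S₁ Ds us M τ r₁ e Cb)
    (hc1 : 1 ≤ c) {W : α → VV n → ℝ} (hW : ∀ a, ∀ z ∈ U a, W a z = fW S l s₁ Ph Ds a z) {Cf : ℝ}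
    (hx : ∀ a, ∀ z ∈ U a, ∀ i j, |cx a i z * (sx (s₁ a)).D j (W a) z| ≤
      Cf * (fG S l s₁ Ds 1 0 a z / fr s₁ a z))
    (hy : ∀ a, ∀ z ∈ U a, ∀ i j, |cy a i z * (sy (s₂ a)).D j (W a) z| ≤
      Cf * (fG S l s₁ Ds 1 0 a z / fr s₁ a z))
    (hMN : ∀ a, ∀ z ∈ U a, M a ≤ fN l Ph a z)
    {η σ m₀ C₂ c₁ : ℝ} (hη : 0 < η) (hσ : 0 < σ) (hm₀ : 0 < m₀) (hC₂ : 0 ≤ C₂) (hc₁ : 0 < c₁) :
    ∃ ε₁ > 0, ∃ N₀, ∀ a, ∀ z ∈ U a, ∀ m : VV n → ℝ,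
      Cp ε₁ N₀ m₀ σ C₂ c₁ (fN l Ph a z) (fG S l s₁ Ds 1 0 a z) (fG S l s₁ Ds 2 0 a z)
        (fK l Ph a z) (fr s₁ a z) (R a) ((sx (s₁ a)).F (W a) z)
        ((sy (s₂ a)).F (W a) z) (m z) →
      (∀ X Y : Fin n → ℝ, 2 * (m z * ((∑ i, X i ^ 2) + ∑ k, Y k ^ 2)) ≤
        Ch.TH (sx (s₁ a)) (sy (s₂ a)) (W a) z X Y +
          tc (sx (s₁ a)) (cx a) (W a) z X + tc (sy (s₂ a)) (cy a) (W a) z Y) →
      H747.A.Tot (sx (s₁ a)) (sy (s₂ a)) 0 0 (W a) m (cx a) (cy a) η z := by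
  have hr : ∀ a, ∀ z ∈ U a, 0 < fr s₁ a z := fun a z hz => fr_pos D hz
  have w0 := wt_of D.L D.hS D.h0 D.p D.sl
  set Wu : α → VV n → ℝ := fun a z => W a z - Ds a 0 0 (fφ S l s₁ a z, fr s₁ a z) with hWu
  have w := Wt_congr (Wu' := Wu) w0 fun a z hz => by
    simp only [hWu]
    rw [hW a z hz]
    unfold fW
    ring
  have hWW : ∀ a, Ww (cD Ds) (fφ S l s₁) (fr s₁) Wu a = W a := fun a => by
    funext z
    have e : Ww (cD Ds) (fφ S l s₁) (fr s₁) Wu a z =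
      Wu a z + Ds a 0 0 (fφ S l s₁ a z, fr s₁ a z) := rfl
    rw [e]
    simp only [hWu]
    ring
  have s := s1_of (A := A) D.L.oO D.L.oU D.L.hx D.L.R1 D.t₁ D.e0 D.e1 hr D.L.rR
  have s' := s2_of (A := A) D.L.oO D.L.oU D.L.hy D.L.R1 D.t₂ D.e0 D.e1 hr D.L.rR
  have rk := rk_of (φ := fφ S l s₁) (r := fr s₁) zero_le_one D.C0 D.sl hr
  have hl : Bo U (fun _ _ => 1) (glam Ds (fφ S l s₁) (fr s₁)) :=
    ⟨6 / 5, by norm_num, fun a z hz => by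
      rw [mul_one]; exact lam_abs (φ := fφ S l s₁) D.sl hr hz⟩
  have Gp : ∀ a, ∀ z ∈ U a, 0 < fG S l s₁ Ds 1 0 a z := fun a z hz =>
    G_pos (φ := fφ S l s₁) D.sl hr hz
  have hb : ∀ f : α → VV n → ℝ, (∀ a, ∀ z ∈ U a, |f a z| ≤
      Cf * (fG S l s₁ Ds 1 0 a z / fr s₁ a z)) →
      Bo U (E0 (fr s₁) (gD Ds (fφ S l s₁) (fr s₁) 1 0) (feu l Ph R)) f := by
    intro f hf
    refine ⟨|Cf|, abs_nonneg _, fun a z hz => (hf a z hz).trans ?_⟩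
    have h1 : 0 ≤ fG S l s₁ Ds 1 0 a z / fr s₁ a z := div_nonneg (Gp a z hz).le (hr a z hz).le
    refine (mul_le_mul_of_nonneg_right (le_abs_self Cf) h1).trans
      (mul_le_mul_of_nonneg_left ?_ (abs_nonneg _))
    have e1 : E0 (fr s₁) (gD Ds (fφ S l s₁) (fr s₁) 1 0) (feu l Ph R) a z =
        fG S l s₁ Ds 1 0 a z / fr s₁ a z + feu l Ph R a z := by
      unfold E0 rG fG
      rw [div_eq_mul_inv]
    rw [e1]
    exact le_add_of_nonneg_right (w.eu0 a z hz)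
  obtain ⟨Ck, Ck0, hCk⟩ := D.p.kn
  set Kc : ℝ := (1 + C₂ + σ⁻¹) / m₀ with hKc
  have Kc0 : 0 ≤ Kc := by
    have := inv_pos.2 hσ
    positivity
  obtain ⟨ε₀, hε, H⟩ := w.tot s s' rk hl (fun a z hz v => (ss_x (D.t₁ a) (D.en a) z v).1)
    (fun a z hz v => (ss_y (D.t₂ a) (D.en a) z v).1)
    (c := cx) (c' := cy) (v₁ := fun _ => 0) (v₂ := fun _ => 0) (V := fun _ _ => 0)
    (cv := fun a z => 1 * (M a / fr s₁ a z) * fG S l s₁ Ds 1 0 a z)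
    (fun i j => hb _ fun a z hz => by rw [hWW a]; exact hx a z hz i j)
    (fun i j => hb _ fun a z hz => by rw [hWW a]; exact hy a z hz i j)
    (fun i => ⟨0, le_rfl, fun a z _ => by simp [H657.W.dd]⟩)
    (fun i => ⟨0, le_rfl, fun a z _ => by simp [H657.W.dd]⟩)
    (fun _ _ _ => le_rfl)
    (fun a z hz => by
      have h1 := div_nonneg (D.M0 a) (hr a z hz).le
      have h2 := (Gp a z hz).le
      positivity)
    (fun a z hz => cv_le (φ := fφ S l s₁) D.sl hr hz) hη Kc0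
  have ec : 0 < ε₀ * c₁ := mul_pos hε hc₁
  have em : 0 < ε₀ * c₁ * m₀ := mul_pos ec hm₀
  refine ⟨ε₀ * c₁ * m₀, em, max (max 1 (1 / (ε₀ * c₁)))
    (max ((2 + Ck) / (ε₀ * c₁)) (1 / (ε₀ * c₁ * m₀))), fun a z hz m hp cert => ?_⟩
  set N₀ : ℝ := max (max 1 (1 / (ε₀ * c₁))) (max ((2 + Ck) / (ε₀ * c₁)) (1 / (ε₀ * c₁ * m₀)))
    with hN₀
  have n1 : 1 ≤ N₀ := (le_max_left _ _).trans (le_max_left _ _)
  have n2 : 1 / (ε₀ * c₁) ≤ N₀ := (le_max_right _ _).trans (le_max_left _ _)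
  have n3 : (2 + Ck) / (ε₀ * c₁) ≤ N₀ := (le_max_left _ _).trans (le_max_right _ _)
  have n4 : 1 / (ε₀ * c₁ * m₀) ≤ N₀ := (le_max_right _ _).trans (le_max_right _ _)
  rw [div_le_iff₀ ec] at n2 n3
  rw [div_le_iff₀ em] at n4
  have r1 : 1 ≤ fr s₁ a z := by
    have h1 : 1 ≤ r2 (gi (s₁ a)) z := hc1.trans (D.h0 a z hz).le
    exact Real.one_le_sqrt.2 h1
  have hcv : 1 * (M a / fr s₁ a z) * fG S l s₁ Ds 1 0 a z ≤
      fN l Ph a z * (fG S l s₁ Ds 1 0 a z / fr s₁ a z) := by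
    have h1 := hMN a z hz
    have h2 : 0 ≤ fG S l s₁ Ds 1 0 a z / fr s₁ a z := div_nonneg (Gp a z hz).le (hr a z hz).le
    calc 1 * (M a / fr s₁ a z) * fG S l s₁ Ds 1 0 a z =
        M a * (fG S l s₁ Ds 1 0 a z / fr s₁ a z) := by ring
      _ ≤ _ := mul_le_mul_of_nonneg_right h1 h2
  obtain ⟨⟨a1, a2⟩, ⟨a3, a4⟩, ⟨a5, a6⟩, a7, a8⟩ := cp_alg hε hm₀ hσ hC₂ hc₁ Ck0 (Gp a z hz).le
    (D.p.k a z hz) r1 (D.L.R1 a) (hCk a z hz) n1 (by linarith) (by linarith) (by linarith) hcv hp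
  have cl : Cl ε₀ Kc (sx (s₁ a)) (sy (s₂ a)) (W a) (cx a) (cy a)
      (c₁ * (fN l Ph a z + fG S l s₁ Ds 1 0 a z) ^ 2)
      (fN l Ph a z + gD Ds (fφ S l s₁) (fr s₁) 1 0 a z) (gD Ds (fφ S l s₁) (fr s₁) 2 0 a z)
      (E0 (fr s₁) (gD Ds (fφ S l s₁) (fr s₁) 1 0) (feu l Ph R) a z) 0
      (1 * (M a / fr s₁ a z) * fG S l s₁ Ds 1 0 a z) (m z) z :=
  { m0 := a1
    f0 := a2
    Em := by
      have e1 : E0 (fr s₁) (gD Ds (fφ S l s₁) (fr s₁) 1 0) (feu l Ph R) a z =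
        fG S l s₁ Ds 1 0 a z / fr s₁ a z + (fK l Ph a z + fN l Ph a z * (R a)⁻¹) := by
        unfold E0 rG fG feu
        rw [div_eq_mul_inv]
      rw [e1]; exact a3
    F1 := hp.F1
    F2 := hp.F2
    one := a4
    gg := a5
    EE := by
      have e1 : E0 (fr s₁) (gD Ds (fφ S l s₁) (fr s₁) 1 0) (feu l Ph R) a z =
        fG S l s₁ Ds 1 0 a z / fr s₁ a z + (fK l Ph a z + fN l Ph a z * (R a)⁻¹) := by
        unfold E0 rG fG feu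
        rw [div_eq_mul_inv]
      rw [e1]; exact a6
    vv := a7
    cc := a8
    up := fun v => (ss_x (D.t₁ a) (D.en a) z v).2
    up' := fun v => (ss_y (D.t₂ a) (D.en a) z v).2
    cert := cert }
  intro X Y x y
  have key := H a z hz (c₁ * (fN l Ph a z + fG S l s₁ Ds 1 0 a z) ^ 2) (m z)
  rw [hWW a] at key
  exact key cl X Y x y

end Vale.Agent.P088.R2.H657.A
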