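import Vale.Agent.P088.R2.H657.A.Ft
import Vale.Agent.P088.R2.H932.EP.Pk1
import Vale.Agent.P088.R2.H222.LevT
import Vale.Agent.P088.R2.H768.A.WD
import Vale.Agent.P088.R2.H747.A.Rows

/-!
# P088, stage 3, zone A: the far family on the package, the ingredients
-/

open Set Filter
open scoped ContDiff Topology Matrix

noncomputable section

namespace Vale.Agent.P088.R2.H657.A

open Vale.Agent.P088.LR Vale.Agent.P088.HY Vale.Agent.P088.R2.H31.EP
open Vale.Agent.P088.R2.H644.Sy Vale.Agent.P088.R2.H464.Cu Vale.Agent.P088.R2.H961.GW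
open Vale.Agent.P088.R2.H644.Ep Vale.Agent.P088.R2.H657.W
open Vale.Agent.P088.R2.H932.EP (Ow Ow_open Ow_conv mem_Ow)
open Vale.Agent.P088.R2.H475 (levG levG_smooth levG_bound)

variable {n : ℕ} {α : Type*}

/-! ## The level -/

/-- The derivative of the level is a symbol of size one at the scale `R`. -/
theorem dl_lev (hn : 1 ≤ n) {σ : ℝ} (h0 : 0 < σ) (h1 : σ ≤ 1 / 5000) {R kap Gs : α → ℝ}
    (hR : ∀ a, 1 ≤ R a) (k : ℕ) :
    Sf (fun a => Ow n σ (R a)) (fun a _ => R a) (fun _ _ => 1) k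
      (fun a => fderiv ℝ (levG n σ (R a) (kap a) (Gs a))) where
  sm a := ((levG_smooth h0 h1).fderiv_right (m := ∞) le_rfl).contDiffOn
  bd j _ := by
    rcases j with _ | j
    · refine ⟨2 * n, fun a x hx => ?_⟩
      rw [norm_iteratedFDeriv_zero, pow_zero, one_mul, mul_one]
      exact H222.fd_lev_le h0 h1 (one_pos.trans_le (hR a)) (le_of_lt hx)
    · obtain ⟨C, _, H⟩ := levG_bound hn h0 h1 j
      refine ⟨C, fun a x _ => ?_⟩
      rw [norm_iteratedFDeriv_fderiv, one_mul]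
      exact H (R a) (kap a) (Gs a) (one_pos.trans_le (hR a)) x

theorem mid_mem {O : Set (V n)} (hO : Convex ℝ O) {z : VV n} (h1 : z.1 ∈ O) (h2 : z.2 ∈ O) :
    mid z ∈ O := by
  have e : mid z = (1 / 2 : ℝ) • z.1 + (1 / 2 : ℝ) • z.2 := by
    unfold mid
    rw [smul_add]
  rw [e]
  exact hO h1 h2 (by norm_num) (by norm_num) (by norm_num)

/-! ## The package -/

/-- The numerical conditions. -/
structure Cnd (n : ℕ) (q : Cst) : Prop where
  R1 : 1 ≤ q.R
  ε0 : 0 ≤ q.ε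
  ε1 : q.ε ≤ 1
  εn : n * q.ε ≤ 1 / 2
  εG : n * (cG n 12 * q.ε) ≤ 1 / 2
  s0 : 0 ≤ q.es
  s1 : q.es ≤ 1 / 10
  c0 : 0 ≤ q.c'
  c1 : q.c' ≤ 1
  M0 : 0 ≤ q.M₀
  e₁ : 0 < q.e₁
  κ0 : 0 < q.κ₁
  κ1 : q.κ₁ ≤ 1
  σ0 : 0 < q.σ
  σ1 : q.σ ≤ 1 / 5000
  Ck : 1 ≤ q.Ck
  MR : q.M₀ * Real.exp (-(22 / 10 * q.R)) ≤ 1

variable {q : Cst} {d : Pk n}

/-- The open set. -/
def Us (q : Cst) (d : Pk n) : Set (VV n) :=
  {z | 225 < d.r2 z ∧ HY.sq (z.1 - z.2) < (q.κ₁ * q.R) ^ 2 ∧ d.l z.1 < d.l₀ q + 5 / 2 * q.R ∧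
    d.l z.2 < d.l₀ q + 5 / 2 * q.R ∧ d.u q z < d.uta q}

theorem Us_open (c : Cnd n q) (ok : PkOk q d) : IsOpen (Us q d) := by
  have hR := one_pos.trans_le c.R1
  have h1 : Continuous d.r2 := (H768.A.sm_r2 ok hR c.ε1 c.εn).continuous
  have h2 : Continuous (d.u q) := (H768.A.sm_u ok hR c.ε1 c.εn).continuous
  have h3 : Continuous d.l := ok.lev.sm.continuous
  have h4 : Continuous fun z : VV n => HY.sq (z.1 - z.2) :=
    H475.contDiff_sq.continuous.comp (continuous_fst.sub continuous_snd)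
  exact (isOpen_lt continuous_const h1).inter ((isOpen_lt h4 continuous_const).inter
    ((isOpen_lt (h3.comp continuous_fst) continuous_const).inter
    ((isOpen_lt (h3.comp continuous_snd) continuous_const).inter
    (isOpen_lt h2 continuous_const))))

theorem lev_eq (ok : PkOk q d) : d.l = levG n q.σ q.R d.kap d.Gs := ok.lev.lit

theorem Us_Ow (c : Cnd n q) (ok : PkOk q d) {z : VV n} (hz : z ∈ Us q d) :
    z.1 ∈ Ow n q.σ q.R ∧ z.2 ∈ Ow n q.σ q.R := by
  obtain ⟨-, -, h1, h2, -⟩ := hz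
  have e : d.l₀ q = H475.lam0 q.R d.kap d.Gs := rfl
  rw [lev_eq ok, e] at h1 h2
  have hR := one_pos.trans_le c.R1
  exact ⟨mem_Ow c.σ0 c.σ1 hR (y := z.2) (by linarith), mem_Ow c.σ0 c.σ1 hR (y := z.1) (by linarith)⟩

/-- `u = l(x) + l(y)` on the set. -/
theorem Us_u (ok : PkOk q d) {z : VV n} (hz : 4 ≤ d.r2 z) : d.u q z = uf d.l z := by
  have h1 : d.χ (d.r2 z) = 0 := ok.χ0 _ hz
  have e : d.u q z = uf d.l z + 2 * (d.χ (d.r2 z) * d.μc q (d.l (mid z))) := rfl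
  rw [e, h1, zero_mul, mul_zero, add_zero]

theorem l₀_nn (c : Cnd n q) (ok : PkOk q d) : 0 ≤ d.l₀ q := by
  have hR := one_pos.trans_le c.R1
  have h1 : q.R ≤ d.kap := by
    refine le_trans ?_ ok.kC
    calc q.R = q.R ^ (1 : ℝ) := (Real.rpow_one _).symm
      _ ≤ q.R ^ q.Ck := Real.rpow_le_rpow_of_exponent_le c.R1 c.Ck
  have h2 : 0 ≤ Real.log (d.kap / q.R) :=
    Real.log_nonneg ((one_le_div₀ hR).2 h1)
  have h3 : q.R * d.Gs ≤ 0 := mul_nonpos_of_nonneg_of_nonpos hR.le ok.G0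
  unfold Pk.l₀
  linarith

/-! ## The sizes -/

/-- The constant of `K ≤ C E`. -/
def cKE (q : Cst) : ℝ := q.ph.Cb * (1 + q.ph.CT) ^ 2 + 9 * q.nm

/-- `K ≤ C E` in zone A. -/
theorem K_le (c : Cnd n q) (ok : PkOk q d) (g : PhGood q.nm q.ν₁ q.aC q.ph) (hnm : 0 ≤ q.nm) {u : ℝ}
    (hu : u < d.uta q) (h : u < d.uth q ∨ deriv d.Φ u < 4 * q.nm * Real.exp u) :
    deriv (deriv d.Φ) u ≤ cKE q * Real.exp u := by
  have Cb0 := g.Cb0
  have CT0 := g.CT0
  have he := Real.exp_pos u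
  rcases h with h | h
  · have hN : 0 < deriv d.Φ₁ u := by
      have h1 := ok.ph.isΦ.n1 u
      rcases c.M0.eq_or_lt with h2 | h2
      · -- `M₀ = 0` is possible only formally; `Φ₁' > 0` from the strict monotonicity of `Φ₁'`
        have h3 : 0 ≤ deriv d.Φ₁ (u - 1) := c.M0.trans (ok.ph.isΦ.n1 _)
        have h4 : StrictMono (deriv d.Φ₁) := strictMono_of_deriv_pos ok.ph.isΦ.k0
        exact h3.trans_lt (h4 (by linarith))
      · exact h2.trans_le h1
    have h2 := ok.top.c2 u h.le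
    have h3 := ok.top.c1 u h.le
    have e1 : Real.exp (u - d.uth q) ≤ 1 := Real.exp_le_one_iff.2 (by linarith)
    have e0 := Real.exp_pos (u - d.uth q)
    have hK : 0 < deriv (deriv d.Φ₁) u := ok.ph.isΦ.k0 u
    have h5 : deriv d.Φ u ≤ (1 + q.ph.CT) * deriv d.Φ₁ u := by
      refine h3.trans (mul_le_mul_of_nonneg_right ?_ hN.le)
      have := mul_le_mul_of_nonneg_left e1 CT0.le
      linarith
    have h6 : 0 ≤ deriv (deriv d.Φ₁) u / deriv d.Φ₁ u + q.ph.CT * Real.exp (u - d.uth q) := by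
      positivity
    have h7 : deriv d.Φ₁ u ≤ q.ph.Cb * q.M₀ := ok.ph.isΦ.n2 u
    have h8 : deriv (deriv d.Φ₁) u ≤ q.ph.Cb * Real.exp u := ok.ph.isΦ.k2 u
    have h9 : Real.exp (u - d.uth q) * q.M₀ ≤ Real.exp u := by
      have l0 := l₀_nn c ok
      have e2 : Real.exp (u - d.uth q) * q.M₀ =
          Real.exp u * (q.M₀ * Real.exp (-(d.uth q))) := by
        rw [show u - d.uth q = u + -(d.uth q) by ring, Real.exp_add]; ring
      have e3 : Real.exp (-(d.uth q)) ≤ Real.exp (-(22 / 10 * q.R)) := by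
        refine Real.exp_le_exp.2 ?_
        unfold Pk.uth
        linarith
      have e4 : q.M₀ * Real.exp (-(d.uth q)) ≤ 1 :=
        (mul_le_mul_of_nonneg_left e3 c.M0).trans c.MR
      rw [e2]
      exact mul_le_of_le_one_right he.le e4
    calc deriv (deriv d.Φ) u ≤
          (deriv (deriv d.Φ₁) u / deriv d.Φ₁ u + q.ph.CT * Real.exp (u - d.uth q)) *
            deriv d.Φ u := h2
      _ ≤ (deriv (deriv d.Φ₁) u / deriv d.Φ₁ u + q.ph.CT * Real.exp (u - d.uth q)) *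
            ((1 + q.ph.CT) * deriv d.Φ₁ u) := mul_le_mul_of_nonneg_left h5 h6
      _ = (1 + q.ph.CT) * (deriv (deriv d.Φ₁) u +
            q.ph.CT * (Real.exp (u - d.uth q) * deriv d.Φ₁ u)) := by
          field_simp
      _ ≤ (1 + q.ph.CT) * (q.ph.Cb * Real.exp u + q.ph.CT * (q.ph.Cb * Real.exp u)) := by
          refine mul_le_mul_of_nonneg_left (add_le_add h8 (mul_le_mul_of_nonneg_left ?_ CT0.le))
            (by linarith)
          calc Real.exp (u - d.uth q) * deriv d.Φ₁ u ≤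
                Real.exp (u - d.uth q) * (q.ph.Cb * q.M₀) := mul_le_mul_of_nonneg_left h7 e0.le
            _ = q.ph.Cb * (Real.exp (u - d.uth q) * q.M₀) := by ring
            _ ≤ _ := mul_le_mul_of_nonneg_left h9 Cb0.le
      _ = q.ph.Cb * (1 + q.ph.CT) ^ 2 * Real.exp u := by ring
      _ ≤ _ := by
          unfold cKE
          have : 0 ≤ 9 * q.nm * Real.exp u := by positivity
          linarith
  · have h1 := ok.top.k1 u hu.le
    have h2 : 0 ≤ q.ph.Cb * (1 + q.ph.CT) ^ 2 * Real.exp u := by positivity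
    have h3 : 0 ≤ q.nm * Real.exp u := by positivity
    unfold cKE
    linarith

/-- The constant of `E r ≤ C G`. -/
def cEG (q : Cst) : ℝ := 4 * Real.exp 12 * Real.exp (-Real.log (prS q.e₁ (15 ^ 2)))

theorem lS_ge (he : 0 < q.e₁) {r : ℝ} (hr : 15 ≤ r) :
    Real.log (prS q.e₁ (15 ^ 2)) + 4 / 5 * (r - 15) ≤ Real.log (prS q.e₁ (r ^ 2)) := by
  have hd : ∀ t ∈ Icc (15 : ℝ) r, HasDerivAt (H768.A.Sl0 q) (H768.A.Sl1 q t) t := fun t ht =>
    H768.A.hasDerivAt_Sl0 he (by linarith [ht.1])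
  have h := (convex_Icc (15 : ℝ) r).mul_sub_le_image_sub_of_le_deriv
    (fun t ht => (hd t ht).continuousAt.continuousWithinAt)
    (fun t ht => (hd t (interior_subset ht)).differentiableAt.differentiableWithinAt)
    (C := 4 / 5) (fun t ht => by
      rw [(hd t (interior_subset ht)).deriv]
      exact H768.A.Sl1_ge he t) 15 ⟨le_rfl, hr⟩ r ⟨hr, le_rfl⟩ hr
  have e1 : H768.A.Sl0 q r = Real.log (prS q.e₁ (r ^ 2)) := rfl
  have e2 : H768.A.Sl0 q 15 = Real.log (prS q.e₁ (15 ^ 2)) := rfl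
  rw [e1, e2] at h
  linarith

/-- `E ≤ C G / r`. -/
theorem E_le (c : Cnd n q) (ok : PkOk q d) {u r : ℝ} (hr : 15 ≤ r) :
    Real.exp u ≤ cEG q * (q.D 1 0 (u + Real.log (prS q.e₁ (r ^ 2)), r) / r) := by
  have r0 : 0 < r := by linarith
  set f : ℝ := u + Real.log (prS q.e₁ (r ^ 2)) with hf
  have h1 := ok.sl.u_dist (f, r) r0
  have h2 := ok.sl.G_u (f, r) r0
  set v : ℝ := H768.W.uu q.τ q.r₁ (f, r) with hv
  simp only at h1
  have h3 : f - r / 20 ≤ v := by
    have h4 := (abs_le.1 h1).1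
    have h5 : q.τ ≤ 1 / 10 := ok.τ1.trans c.s1
    have h6 : q.τ * r / 2 ≤ r / 20 := by nlinarith
    linarith
  have h4 : 9 / 10 * Real.exp v ≤ q.D 1 0 (f, r) := by
    have h5 := (abs_le.1 h2).1
    have h6 := mul_le_mul_of_nonneg_right c.s1 (Real.exp_pos v).le
    linarith
  have h5 := lS_ge c.e₁ hr
  have h6 : u + Real.log (prS q.e₁ (15 ^ 2)) + 3 / 4 * r - 12 ≤ v := by linarith
  have h7 : Real.exp u * Real.exp (Real.log (prS q.e₁ (15 ^ 2))) * Real.exp (3 / 4 * r) *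
      Real.exp (-12) ≤ Real.exp v := by
    rw [← Real.exp_add, ← Real.exp_add, ← Real.exp_add]
    exact Real.exp_le_exp.2 (by linarith)
  have h8 : r / 2 ≤ Real.exp (3 / 4 * r) := by
    have := Real.add_one_le_exp (3 / 4 * r)
    linarith
  have e1 : Real.exp (-Real.log (prS q.e₁ (15 ^ 2))) * Real.exp (Real.log (prS q.e₁ (15 ^ 2))) = 1 := by
    rw [← Real.exp_add]; simp
  have e2 : Real.exp 12 * Real.exp (-12) = 1 := by rw [← Real.exp_add]; simp
  rw [← mul_div_assoc, le_div_iff₀ r0]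
  unfold cEG
  have p1 := Real.exp_pos (-Real.log (prS q.e₁ (15 ^ 2)))
  have p2 := Real.exp_pos (Real.log (prS q.e₁ (15 ^ 2)))
  have p3 := Real.exp_pos (12 : ℝ)
  have p4 := Real.exp_pos (-12 : ℝ)
  have p5 := Real.exp_pos u
  calc Real.exp u * r ≤ Real.exp u * (2 * Real.exp (3 / 4 * r)) :=
        mul_le_mul_of_nonneg_left (by linarith) p5.le
    _ = 2 * Real.exp 12 * Real.exp (-Real.log (prS q.e₁ (15 ^ 2))) *
        (Real.exp u * Real.exp (Real.log (prS q.e₁ (15 ^ 2))) * Real.exp (3 / 4 * r) *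
          Real.exp (-12)) := by
        have e3 : 2 * Real.exp 12 * Real.exp (-Real.log (prS q.e₁ (15 ^ 2))) *
          (Real.exp u * Real.exp (Real.log (prS q.e₁ (15 ^ 2))) * Real.exp (3 / 4 * r) *
          Real.exp (-12)) = 2 * (Real.exp u * Real.exp (3 / 4 * r)) *
          (Real.exp 12 * Real.exp (-12)) * (Real.exp (-Real.log (prS q.e₁ (15 ^ 2))) *
            Real.exp (Real.log (prS q.e₁ (15 ^ 2)))) := by ring
        rw [e3, e1, e2]
        ring
    _ ≤ 2 * Real.exp 12 * Real.exp (-Real.log (prS q.e₁ (15 ^ 2))) * Real.exp v :=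
        mul_le_mul_of_nonneg_left h7 (by positivity)
    _ ≤ 2 * Real.exp 12 * Real.exp (-Real.log (prS q.e₁ (15 ^ 2))) *
        (2 * q.D 1 0 (f, r)) := by
        refine mul_le_mul_of_nonneg_left ?_ (by positivity)
        have := (Real.exp_pos v).le
        linarith
    _ = _ := by ring

end Vale.Agent.P088.R2.H657.A
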